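import Vale.Agent.P232.GapPair.Check

/-! # P232: certificate for one small axis, volumes in [3135000, 3183099] / 10^7 -/

namespace Vale.Agent.P232.GapPair.Bin5

/-- The interval of volumes. -/
def bin : VBin := ⟨3135000,3183099,9924234,10000075,9962151⟩

end Vale.Agent.P232.GapPair.Bin5
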