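import Vale.Agent.P232.GapPair.Bin5.Items0
import Vale.Agent.P232.GapPair.Bin5.Items1
import Vale.Agent.P232.GapPair.Bin5.Items2
import Vale.Agent.P232.GapPair.Bin5.Items3
import Vale.Agent.P232.GapPair.Bin5.Items4
import Vale.Agent.P232.GapPair.Bin5.Items5
import Vale.Agent.P232.GapPair.Bin5.Items6
import Vale.Agent.P232.GapPair.Bin5.Items7
import Vale.Agent.P232.GapPair.Bin5.Items8
import Vale.Agent.P232.GapPair.Bin5.Items9
import Vale.Agent.P232.GapPair.Bin5.Items10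
import Vale.Agent.P232.GapPair.Bin5.Items11
import Vale.Agent.P232.GapPair.Bin5.Items12
import Vale.Agent.P232.GapPair.Bin5.Items13
import Vale.Agent.P232.GapPair.Bin5.Items14

/-! # P232: certificate for one small axis, the tree -/

namespace Vale.Agent.P232.GapPair.Bin5

/-- All items of the interval. -/
def items : List Item :=
  chunk0 ++ chunk1 ++ chunk2 ++ chunk3 ++ chunk4 ++ chunk5 ++ chunk6 ++ chunk7 ++ chunk8 ++ chunk9 ++ chunk10 ++ chunk11 ++ chunk12 ++ chunk13 ++ chunk14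

def part0 : PTree := (.cutX 6850000 (.cutY 910000 (.cutZ 1600000 (.cutZ 1200000 (.cutZ 800000 (.cutY 700000 (.pair 230 231 5) (.pair 230 232 5)) (.cutY 700000 (.cutZ 1000000 (.pair 230 231 21) (.pair 230 231 9)) (.cutZ 1000000 (.pair 230 232 21) (.pair 230 232 9)))) (.cutY 700000 (.cutZ 1400000 (.pair 230 231 111) (.pair 230 231 38)) (.cutZ 1400000 (.pair 230 233 111) (.cutY 800000 (.pair 230 55 38) (.pair 230 234 38))))) (.cutZ 2400000 (.cutZ 2000000 (.cutY 700000 (.cutZ 1800000 (.pair 230 235 54) (.cutY 600000 (.pair 230 186 149) (.pair 230 124 149))) (.cutZ 1800000 (.cutY 800000 (.pair 230 55 54) (.cutZ 1700000 (.pair 230 234 216) (.cutY 850000 (.pair 230 66 67) (.pair 230 236 237)))) (.cutY 800000 (.cutZ 1900000 (.pair 230 55 125) (.cutY 750000 (.pair 230 55 68) (.pair 230 238 68))) (.cutZ 1900000 (.cutY 850000 (.pair 230 239 125) (.cutY 880000 (.pair 230 151 125) (.cutZ 1850000 (.pair 230 236 221) (.pair 230 240 196)))) (.cutY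 850000 (.pair 230 241 68) (.cutY 880000 (.cutZ 1950000 (.pair 230 151 224) (.pair 230 151 225)) (.cutZ 1950000 (.pair 230 240 224) (.pair 230 240 225)))))))) (.cutY 700000 (.cutZ 2200000 (.cutY 600000 (.pair 230 56 57) (.pair 230 215 57)) (.cutY 600000 (.pair 230 56 58) (.pair 230 215 58))) (.cutZ 2200000 (.cutY 800000 (.cutZ 2100000 (.cutY 750000 (.pair 230 55 214) (.pair 230 238 214)) (.cutY 750000 (.pair 230 114 101) (.pair 230 242 101))) (.cutZ 2100000 (.cutY 850000 (.pair 230 243 214) (.cutY 880000 (.pair 230 244 214) (.cutZ 2050000 (.pair 230 245 246) (.pair 230 245 209)))) (.cutY 850000 (.pair 230 243 101) (.cutY 880000 (.pair 230 244 101) (.pair 230 245 101))))) (.cutY 800000 (.pair 230 114 58) (.cutZ 2300000 (.cutY 850000 (.pair 230 243 211) (.pair 230 247 211)) (.cutY 850000 (.pair 230 178 182) (.pair 230 247 182))))))) (.cutZ 2800000 (.cutY 700000 (.cutZ 2600000 (.cutY 600000 (.pair 230 56 105) (.pair 230 215 105)) (.pair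 230 248 145)) (.cutZ 2600000 (.cutY 800000 (.pair 230 114 144) (.pair 230 249 144)) (.pair 230 250 145))) (.cutY 700000 (.pair 230 248 106) (.pair 230 250 106))))) .graph) (.cutX 6900000 (.cutY 810000 (.cutZ 1600000 (.cutZ 1200000 (.cutZ 800000 (.cutY 600000 (.pair 251 34 5) (.pair 251 252 5)) (.cutY 600000 (.pair 251 34 7) (.cutZ 1000000 (.pair 251 252 21) (.pair 251 252 9)))) (.cutY 600000 (.pair 251 34 8) (.cutZ 1400000 (.pair 251 253 111) (.pair 251 253 38)))) (.cutZ 2400000 (.cutZ 2000000 (.cutY 600000 (.pair 251 186 10) (.cutZ 1800000 (.cutY 700000 (.pair 251 124 54) (.cutZ 1700000 (.pair 251 233 216) (.pair 251 254 237))) (.cutY 700000 (.pair 251 124 149) (.cutZ 1900000 (.cutY 750000 (.pair 251 55 125) (.pair 251 255 125)) (.cutY 750000 (.pair 251 55 68) (.cutY 780000 (.pair 251 238 68) (.pair 251 256 68))))))) (.cutY 600000 (.cutZ 2200000 (.pair 251 56 57) (.pair 251 56 58)) (.cutZ 2200000 (.cutY 700000 (.cutZ 2100000 (.pair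 251 124 214) (.pair 251 215 257)) (.cutZ 2100000 (.cutY 750000 (.pair 251 258 214) (.cutY 780000 (.pair 251 242 214) (.pair 251 259 214))) (.cutY 750000 (.pair 251 258 257) (.cutY 780000 (.pair 251 242 257) (.pair 251 259 257))))) (.cutY 700000 (.pair 251 215 58) (.cutZ 2300000 (.cutY 750000 (.pair 251 258 58) (.pair 251 260 211)) (.cutY 750000 (.pair 251 114 58) (.pair 251 260 182))))))) (.cutZ 2800000 (.cutY 600000 (.pair 251 56 105) (.cutZ 2600000 (.cutY 700000 (.pair 251 215 105) (.pair 251 261 144)) (.cutY 700000 (.pair 251 215 145) (.pair 251 261 145)))) (.cutY 600000 (.pair 251 56 106) (.pair 251 262 106))))) .graph) (.cutX 6950000 (.cutY 710000 (.cutZ 1600000 (.cutZ 1200000 (.cutZ 800000 (.pair 263 264 5) (.cutZ 1000000 (.pair 263 264 21) (.pair 263 264 9))) (.cutZ 1400000 (.pair 263 265 111) (.pair 263 265 38))) (.cutZ 2400000 (.cutZ 2000000 (.cutZ 1800000 (.cutY 600000 (.pair 263 186 54) (.pair 263 19 54)) (.cutY 600000 (.pair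 263 186 149) (.cutZ 1900000 (.pair 263 266 149) (.cutY 650000 (.pair 263 124 149) (.pair 263 267 68))))) (.cutZ 2200000 (.cutY 600000 (.pair 263 56 57) (.cutZ 2100000 (.cutY 650000 (.pair 263 124 214) (.pair 263 267 214)) (.cutY 650000 (.pair 263 215 257) (.pair 263 268 257)))) (.cutY 600000 (.pair 263 56 58) (.cutZ 2300000 (.cutY 650000 (.pair 263 215 58) (.pair 263 269 58)) (.cutY 650000 (.pair 263 215 58) (.pair 263 269 58)))))) (.cutZ 2800000 (.cutZ 2600000 (.cutY 600000 (.pair 263 56 105) (.pair 263 270 271)) (.cutY 600000 (.pair 263 56 145) (.pair 263 270 145))) (.pair 263 272 106)))) .graph) (.cutX 7000000 (.cutY 600000 (.cutZ 1600000 (.cutZ 1200000 (.cutZ 800000 (.pair 273 34 5) (.pair 273 34 7)) (.pair 273 274 8)) (.cutZ 2400000 (.cutZ 2000000 (.cutZ 1800000 (.pair 273 274 54) (.pair 273 186 149)) (.cutZ 2200000 (.cutZ 2100000 (.pair 273 186 214) (.pair 273 56 257)) (.cutZ 2300000 (.pair 273 56 275) (.pair 273 56 276)))) (.cutZ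 2800000 (.pair 273 56 105) (.pair 273 56 106)))) .graph) .graph))))

def part1 : PTree := (.cutZ 1600000 (.cutZ 1200000 (.cutY 800000 (.cutZ 800000 (.cutY 600000 (.pair 213 34 5) (.pair 213 19 5)) (.cutY 600000 (.pair 213 34 7) (.cutZ 1000000 (.pair 213 19 21) (.pair 213 19 9)))) (.cutZ 800000 (.pair 213 21 5) (.cutZ 1000000 (.pair 213 21 21) (.pair 213 21 9)))) (.cutY 800000 (.cutY 600000 (.pair 213 34 8) (.cutZ 1400000 (.pair 213 19 111) (.pair 213 19 38))) (.cutZ 1400000 (.cutY 900000 (.pair 213 66 111) (.pair 213 39 111)) (.cutY 900000 (.pair 213 66 38) (.cutZ 1500000 (.pair 213 39 38) (.pair 213 39 112)))))) (.cutZ 2400000 (.cutY 800000 (.cutZ 2000000 (.cutY 600000 (.pair 213 186 10) (.cutZ 1800000 (.cutY 700000 (.pair 213 124 54) (.pair 213 55 54)) (.cutY 700000 (.pair 213 124 149) (.cutZ 1900000 (.pair 213 55 125) (.pair 213 55 68))))) (.cutY 600000 (.pair 213 56 12) (.cutZ 2200000 (.cutY 700000 (.pair 213 124 57) (.cutZ 2100000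 (.pair 213 55 214) (.pair 213 114 101))) (.cutY 700000 (.pair 213 215 58) (.pair 213 114 58))))) (.cutZ 2000000 (.cutZ 1800000 (.cutY 900000 (.cutZ 1700000 (.pair 213 66 54) (.pair 213 66 67)) (.cutZ 1700000 (.cutY 950000 (.pair 213 39 216) (.pair 213 150 216)) (.cutY 950000 (.cutZ 1750000 (.pair 213 152 157) (.pair 213 152 160)) (.cutZ 1750000 (.pair 213 150 157) (.pair 213 217 218))))) (.cutY 900000 (.cutZ 1900000 (.cutY 850000 (.pair 213 66 125) (.pair 213 151 125)) (.cutY 850000 (.pair 213 98 68) (.pair 213 151 68))) (.cutZ 1900000 (.cutY 950000 (.cutZ 1850000 (.pair 213 152 125) (.pair 213 152 196)) (.cutZ 1850000 (.cutX 6780000 (.pair 219 220 221) (.cutY 970000 (.pair 213 220 221) (.pair 213 222 221))) (.cutX 6780000 (.cutY 970000 (.pair 219 69 196) (.pair 219 222 196)) (.cutY 970000 (.pair 213 69 196) (.pair 213 223 196))))) (.cutY 950000 (.cutZ 1950000 (.pair 213 152 224) (.cutX 6780000 (.pair 219 152 225) (.cutY 920000 (.pair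 213 152 225) (.pair 213 226 225)))) (.cutZ 1950000 (.cutX 6780000 (.cutY 970000 (.pair 219 69 224) (.pair 219 223 224)) (.cutY 970000 (.pair 213 69 224) (.cutZ 1920000 (.pair 213 223 224) (.pair 213 223 176)))) (.cutX 6780000 (.cutY 970000 (.pair 219 69 225) (.pair 219 223 225)) (.cutY 970000 (.pair 213 69 225) (.cutZ 1980000 (.pair 213 223 225) (.pair 213 223 206))))))))) (.cutZ 2200000 (.cutY 900000 (.cutZ 2100000 (.cutY 850000 (.pair 213 98 214) (.pair 213 227 214)) (.cutY 850000 (.pair 213 98 101) (.pair 213 227 101))) (.cutZ 2100000 (.cutY 950000 (.cutZ 2050000 (.pair 213 207 208) (.pair 213 207 209)) (.cutZ 2050000 (.cutX 6780000 (.pair 219 228 208) (.cutY 970000 (.pair 213 228 208) (.pair 213 229 208))) (.pair 213 228 209))) (.cutY 950000 (.pair 213 207 101) (.pair 213 228 101)))) (.cutY 900000 (.cutZ 2300000 (.pair 213 178 211) (.pair 213 178 182)) (.cutZ 2300000 (.pair 213 99 211) (.pair 213 99 182)))))) (.cutY 800000 (.cutZ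 2800000 (.cutY 600000 (.pair 213 56 105) (.cutZ 2600000 (.cutY 700000 (.pair 213 215 105) (.pair 213 114 144)) (.pair 213 53 145))) (.pair 213 11 106)) (.cutZ 2800000 (.cutZ 2600000 (.cutY 900000 (.pair 213 178 144) (.pair 213 99 144)) (.pair 213 63 145)) (.pair 213 63 106)))))

def part2 : PTree := (.cutZ 1800000 (.cutY 1000000 (.cutZ 1700000 (.cutY 950000 (.pair 183 39 84) (.pair 183 150 84)) (.cutY 950000 (.pair 183 152 67) (.cutZ 1750000 (.pair 183 150 157) (.pair 183 150 160)))) (.cutZ 1700000 (.cutY 1040000 (.cutZ 1650000 (.pair 183 185 153) (.pair 183 115 116)) (.cutZ 1650000 (.pair 183 185 153) (.pair 183 187 116))) (.cutY 1040000 (.cutZ 1750000 (.cutX 6720000 (.pair 188 115 157) (.pair 189 190 157)) (.cutX 6720000 (.pair 188 191 160) (.cutY 1020000 (.pair 189 191 160) (.cutX 6740000 (.pair 192 155 160) (.cutZ 1780000 (.pair 189 155 160) (.pair 189 155 134)))))) (.cutZ 1750000 (.cutX 6720000 (.pair 188 187 157) (.cutX 6740000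 (.pair 192 187 157) (.cutZ 1720000 (.pair 189 187 157) (.pair 189 187 164)))) (.cutX 6720000 (.pair 188 193 160) (.cutX 6740000 (.cutZ 1780000 (.pair 192 193 160) (.pair 192 193 134)) (.cutZ 1780000 (.pair 189 193 194) (.pair 189 193 134)))))))) (.cutY 1000000 (.cutZ 1900000 (.cutY 950000 (.cutZ 1850000 (.pair 183 152 125) (.pair 183 152 171)) (.cutZ 1850000 (.cutX 6720000 (.pair 188 69 166) (.cutY 980000 (.pair 189 69 166) (.pair 189 195 166))) (.cutX 6720000 (.pair 188 69 196) (.cutY 980000 (.pair 189 69 196) (.pair 189 195 196))))) (.cutY 950000 (.cutZ 1950000 (.pair 183 152 68) (.pair 183 152 120)) (.cutZ 1950000 (.cutX 6720000 (.pair 188 69 135) (.cutY 980000 (.pair 189 69 135) (.pair 189 197 135))) (.cutX 6720000 (.pair 188 69 120) (.cutY 980000 (.pair 189 69 120) (.pair 189 197 120)))))) (.cutZ 1900000 (.cutY 1040000 (.cutZ 1850000 (.cutX 6720000 (.cutY 1020000 (.pair 188 191 166) (.pair 188 167 166)) (.cutY 1020000 (.pair 189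 198 166) (.cutX 6740000 (.cutZ 1820000 (.pair 192 155 166) (.pair 192 167 168)) (.cutZ 1820000 (.pair 189 155 166) (.pair 189 167 168))))) (.cutX 6720000 (.cutY 1020000 (.pair 188 119 196) (.pair 188 167 171)) (.cutY 1020000 (.pair 189 199 196) (.cutX 6740000 (.cutZ 1880000 (.pair 192 167 171) (.pair 192 167 174)) (.cutZ 1880000 (.pair 189 167 200) (.pair 189 167 174)))))) (.cutZ 1850000 (.cutX 6720000 (.cutZ 1820000 (.pair 188 193 166) (.pair 188 193 168)) (.cutX 6740000 (.cutZ 1820000 (.pair 192 193 166) (.pair 192 201 168)) (.cutZ 1820000 (.pair 189 193 202) (.cutY 1050000 (.pair 189 201 168) (.pair 189 203 168))))) (.cutX 6720000 (.cutZ 1880000 (.pair 188 201 200) (.pair 188 201 174)) (.cutX 6740000 (.cutZ 1880000 (.pair 192 201 200) (.pair 192 201 174)) (.cutZ 1880000 (.cutY 1050000 (.pair 189 201 200) (.pair 189 203 200)) (.pair 189 201 174)))))) (.cutY 1040000 (.cutZ 1950000 (.cutX 6720000 (.cutY 1020000 (.pair 188 199 135)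 (.pair 188 167 135)) (.cutY 1020000 (.pair 189 199 135) (.cutX 6740000 (.pair 192 204 135) (.cutZ 1920000 (.pair 189 204 135) (.pair 189 204 176))))) (.cutX 6720000 (.cutY 1020000 (.pair 188 199 120) (.pair 188 204 120)) (.cutY 1020000 (.pair 189 199 120) (.pair 189 205 120)))) (.cutZ 1950000 (.cutX 6720000 (.pair 188 201 135) (.cutX 6740000 (.cutZ 1920000 (.pair 192 201 135) (.pair 192 201 176)) (.cutZ 1920000 (.pair 189 201 135) (.pair 189 201 176)))) (.cutX 6720000 (.pair 188 201 120) (.cutX 6740000 (.cutZ 1980000 (.pair 192 201 120) (.pair 192 201 206)) (.cutZ 1980000 (.pair 189 201 120) (.pair 189 201 206)))))))))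

def part3 : PTree := (.cutY 1000000 (.cutZ 1800000 (.cutY 900000 (.cutZ 1700000 (.pair 146 66 54) (.pair 146 66 67)) (.cutZ 1700000 (.cutY 950000 (.pair 146 39 84) (.pair 146 150 84)) (.cutY 950000 (.pair 146 65 67) (.cutZ 1750000 (.pair 146 150 67) (.pair 146 150 82))))) (.cutY 900000 (.cutZ 1900000 (.pair 146 66 125) (.cutY 850000 (.pair 146 98 68) (.pair 146 151 68))) (.cutZ 1900000 (.cutY 950000 (.pair 146 152 125) (.cutZ 1850000 (.pair 146 69 125) (.pair 146 69 92))) (.cutY 950000 (.pair 146 152 68) (.cutZ 1950000 (.pair 146 69 135) (.pair 146 69 120)))))) (.cutZ 1800000 (.cutZ 1700000 (.cutY 1050000 (.cutZ 1650000 (.pair 146 115 84) (.pair 146 115 116)) (.cutY 1080000 (.cutZ 1650000 (.pair 146 76 84) (.pair 146 76 116)) (.cutZ 1650000 (.pair 146 148 153) (.cutX 6680000 (.pair 154 148 116) (.cutY 1100000 (.pair 146 148 116) (.pair 146 83 116)))))) (.cutY 1050000 (.cutZ 1750000 (.pair 146 115 85) (.cutX 6680000 (.pair 154 115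 82) (.cutY 1020000 (.pair 146 115 82) (.pair 146 155 82)))) (.cutY 1080000 (.cutZ 1750000 (.pair 146 156 157) (.cutX 6680000 (.pair 154 158 82) (.cutY 1060000 (.pair 146 158 82) (.pair 146 159 160)))) (.cutZ 1750000 (.cutX 6680000 (.cutX 6660000 (.pair 161 162 157) (.cutY 1100000 (.pair 154 162 157) (.pair 154 163 157))) (.cutY 1100000 (.cutZ 1720000 (.pair 146 162 157) (.pair 146 162 164)) (.cutZ 1720000 (.pair 146 163 157) (.pair 146 163 164)))) (.cutX 6680000 (.cutX 6660000 (.cutY 1100000 (.pair 161 127 160) (.pair 161 163 160)) (.cutY 1100000 (.pair 154 127 160) (.pair 154 165 160))) (.cutY 1100000 (.cutZ 1780000 (.pair 146 127 160) (.pair 146 127 134)) (.cutZ 1780000 (.pair 146 165 160) (.pair 146 165 134)))))))) (.cutZ 1900000 (.cutY 1050000 (.cutZ 1850000 (.cutX 6680000 (.cutY 1020000 (.pair 154 119 95) (.pair 154 155 95)) (.cutY 1020000 (.pair 146 119 95) (.pair 146 155 166))) (.cutX 6680000 (.cutY 1020000 (.pair 154 119 92)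 (.pair 154 155 92)) (.cutY 1020000 (.pair 146 119 92) (.pair 146 167 92)))) (.cutY 1080000 (.cutZ 1850000 (.cutX 6680000 (.pair 154 158 166) (.cutY 1060000 (.pair 146 158 166) (.cutZ 1820000 (.pair 146 159 166) (.pair 146 159 168)))) (.cutX 6680000 (.pair 154 169 92) (.cutY 1060000 (.pair 146 169 92) (.pair 146 170 171)))) (.cutZ 1850000 (.cutX 6680000 (.cutX 6660000 (.cutY 1100000 (.pair 161 127 166) (.pair 161 165 166)) (.cutY 1100000 (.pair 154 172 166) (.pair 154 165 166))) (.cutY 1100000 (.cutZ 1820000 (.pair 146 127 166) (.pair 146 172 168)) (.cutZ 1820000 (.pair 146 165 166) (.pair 146 165 168)))) (.cutX 6680000 (.cutX 6660000 (.pair 161 173 171) (.cutY 1100000 (.pair 154 172 171) (.pair 154 121 171))) (.cutY 1100000 (.cutZ 1880000 (.pair 146 172 171) (.pair 146 172 174)) (.cutZ 1880000 (.pair 146 175 171) (.pair 146 175 174))))))) (.cutY 1050000 (.cutZ 1950000 (.cutX 6680000 (.pair 154 119 135) (.cutY 1020000 (.pair 146 119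 135) (.pair 146 167 135))) (.cutX 6680000 (.pair 154 119 120) (.cutY 1020000 (.pair 146 119 120) (.pair 146 167 120)))) (.cutY 1080000 (.cutZ 1950000 (.cutX 6680000 (.pair 154 169 135) (.cutY 1060000 (.pair 146 169 135) (.pair 146 170 135))) (.pair 146 169 120)) (.cutZ 1950000 (.cutX 6680000 (.cutX 6660000 (.pair 161 173 135) (.cutY 1100000 (.pair 154 172 135) (.pair 154 175 135))) (.cutY 1100000 (.cutZ 1920000 (.pair 146 172 135) (.pair 146 172 176)) (.pair 146 175 135))) (.cutX 6680000 (.pair 154 173 120) (.cutY 1100000 (.pair 146 172 120) (.pair 146 175 120)))))))))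

def part4 : PTree := (.cutX 6700000 (.cutY 1110000 (.cutZ 1600000 (.cutZ 1200000 (.cutY 800000 (.cutZ 800000 (.cutY 600000 (.pair 146 34 5) (.pair 146 19 5)) (.cutY 600000 (.pair 146 34 7) (.cutZ 1000000 (.pair 146 19 21) (.pair 146 19 9)))) (.cutZ 800000 (.cutY 1000000 (.pair 146 21 5) .empty) (.cutY 1000000 (.cutZ 1000000 (.pair 146 21 21) (.pair 146 21 9)) (.cutZ 1000000 (.pair 146 110 21) (.pair 146 110 9))))) (.cutY 800000 (.cutY 600000 (.pair 146 34 8) (.cutZ 1400000 (.pair 146 19 111) (.pair 146 19 38))) (.cutY 1000000 (.cutZ 1400000 (.pair 146 21 111) (.cutY 900000 (.pair 146 66 38) (.pair 146 39 38))) (.cutZ 1400000 (.cutZ 1300000 (.pair 146 110 111) (.pair 146 110 43)) (.cutZ 1500000 (.cutY 1050000 (.pair 146 35 45) (.pair 146 147 45)) (.cutY 1050000 (.pair 146 24 112) (.cutY 1080000 (.pair 146 76 112) (.pair 146 148 112)))))))) (.cutZ 2400000 (.cutY 800000 (.cutZ 2000000 (.cutY 600000 (.pair 146 56 10) (.cutZ 1800000 (.pair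 146 19 54) (.cutY 700000 (.pair 146 124 26) (.pair 146 55 149)))) (.cutY 600000 (.pair 146 56 12) (.cutZ 2200000 (.cutY 700000 (.pair 146 124 57) (.pair 146 114 57)) (.cutY 700000 (.pair 146 53 58) (.pair 146 114 58))))) (.cutZ 2000000 part3 (.cutY 1000000 (.cutZ 2200000 (.cutY 900000 (.cutZ 2100000 (.cutY 850000 (.pair 146 98 100) (.pair 146 151 100)) (.pair 146 98 101)) (.cutZ 2100000 (.cutY 950000 (.pair 146 152 100) (.pair 146 177 100)) (.cutY 950000 (.pair 146 99 101) (.pair 146 177 101)))) (.cutY 900000 (.pair 146 178 58) (.pair 146 99 179))) (.cutZ 2200000 (.cutZ 2100000 (.cutY 1050000 (.cutZ 2050000 (.pair 146 140 142) (.pair 146 140 143)) (.cutY 1080000 (.cutZ 2050000 (.pair 146 141 142) (.pair 146 141 143)) (.cutZ 2050000 (.pair 146 180 142) (.pair 146 180 143)))) (.cutY 1050000 (.pair 146 140 101) (.pair 146 181 101))) (.cutZ 2300000 (.cutY 1050000 (.pair 146 102 179) (.pair 146 181 179)) (.pair 146 107 182)))))) (.cutY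 800000 (.cutZ 2800000 (.cutY 600000 (.pair 146 56 105) (.cutZ 2600000 (.pair 146 53 144) (.pair 146 53 145))) (.pair 146 11 106)) (.cutZ 2800000 (.cutY 1000000 (.cutZ 2600000 (.pair 146 63 144) (.pair 146 63 145)) (.pair 146 107 108)) (.pair 146 15 106))))) .graph) (.cutX 6750000 (.cutY 1060000 (.cutZ 1600000 (.cutZ 1200000 (.cutY 800000 (.cutZ 800000 (.cutY 600000 (.pair 183 34 5) (.pair 183 19 5)) (.cutY 600000 (.pair 183 34 7) (.cutZ 1000000 (.pair 183 19 21) (.pair 183 19 9)))) (.cutZ 800000 (.cutY 900000 (.pair 183 21 5) .empty) (.cutY 900000 (.cutZ 1000000 (.pair 183 21 21) (.pair 183 66 9)) (.cutZ 1000000 (.pair 183 184 21) (.pair 183 184 9))))) (.cutY 800000 (.cutY 600000 (.pair 183 34 8) (.cutZ 1400000 (.pair 183 19 111) (.pair 183 19 38))) (.cutY 900000 (.cutZ 1400000 (.pair 183 66 111) (.pair 183 66 38)) (.cutZ 1400000 (.cutY 1000000 (.pair 183 39 111) (.pair 183 35 111)) (.cutY 1000000 (.cutZ 1500000 (.pair 183 39 38) (.pair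 183 39 112)) (.cutZ 1500000 (.pair 183 35 45) (.pair 183 185 112))))))) (.cutZ 2400000 (.cutY 800000 (.cutZ 2000000 (.cutY 600000 (.pair 183 186 10) (.cutZ 1800000 (.pair 183 19 54) (.cutY 700000 (.pair 183 124 149) (.pair 183 55 149)))) (.cutY 600000 (.pair 183 56 12) (.cutZ 2200000 (.cutY 700000 (.pair 183 124 57) (.cutZ 2100000 (.pair 183 55 57) (.pair 183 114 101))) (.cutY 700000 (.pair 183 53 58) (.pair 183 114 58))))) (.cutZ 2000000 (.cutY 900000 (.cutZ 1800000 (.cutZ 1700000 (.pair 183 66 54) (.pair 183 66 67)) (.cutZ 1900000 (.cutY 850000 (.pair 183 66 125) (.pair 183 151 125)) (.cutY 850000 (.pair 183 98 68) (.pair 183 151 68)))) part2) (.cutY 900000 (.cutZ 2200000 (.cutZ 2100000 (.cutY 850000 (.pair 183 98 100) (.pair 183 151 100)) (.cutY 850000 (.pair 183 98 101) (.pair 183 151 101))) (.pair 183 178 179)) (.cutZ 2200000 (.cutY 1000000 (.cutZ 2100000 (.cutY 950000 (.pair 183 207 100) (.cutZ 2050000 (.pair 183 177 208) (.pair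 183 177 209))) (.cutY 950000 (.pair 183 207 101) (.pair 183 177 101))) (.cutZ 2100000 (.cutY 1040000 (.cutZ 2050000 (.cutX 6720000 (.pair 188 140 208) (.cutY 1020000 (.pair 189 140 208) (.pair 189 205 208))) (.pair 183 140 209)) (.cutZ 2050000 (.pair 183 210 208) (.pair 183 210 209))) (.cutY 1040000 (.pair 183 140 101) (.pair 183 210 101)))) (.cutY 1000000 (.cutZ 2300000 (.pair 183 99 211) (.pair 183 99 182)) (.pair 183 102 179)))))) (.cutY 800000 (.cutZ 2800000 (.cutY 600000 (.pair 183 56 105) (.cutZ 2600000 (.cutY 700000 (.pair 183 53 105) (.pair 183 114 144)) (.pair 183 53 145))) (.pair 183 11 106)) (.cutZ 2800000 (.cutY 900000 (.pair 183 178 105) (.cutZ 2600000 (.pair 183 212 144) (.pair 183 212 145))) (.pair 183 15 106))))) .graph) (.cutX 6800000 (.cutY 990000 part1 .graph) part0)))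

def part5 : PTree := (.cutZ 2000000 (.cutY 1000000 (.cutZ 1800000 (.cutY 900000 (.pair 122 66 54) (.cutZ 1700000 (.pair 122 39 84) (.cutY 950000 (.pair 122 65 67) (.pair 122 69 67)))) (.cutY 900000 (.cutZ 1900000 (.pair 122 66 125) (.pair 122 98 68)) (.cutZ 1900000 (.cutY 950000 (.pair 122 65 125) (.pair 122 69 125)) (.cutY 950000 (.pair 122 65 68) (.pair 122 69 68))))) (.cutZ 1800000 (.cutY 1100000 (.cutZ 1700000 (.cutY 1050000 (.pair 122 115 84) (.cutZ 1650000 (.pair 122 76 84) (.pair 122 76 116))) (.cutY 1050000 (.cutZ 1750000 (.pair 122 115 85) (.pair 122 115 82)) (.cutZ 1750000 (.pair 122 76 85) (.cutX 6620000 (.pair 126 76 82) (.cutY 1080000 (.pair 122 76 82) (.pair 122 127 82)))))) (.cutZ 1700000 (.cutZ 1650000 (.cutX 6620000 (.pair 126 83 87) (.cutY 1120000 (.pair 122 83 84) (.pair 122 128 87))) (.cutX 6620000 (.pair 126 83 116) (.cutY 1120000 (.pair 122 83 116) (.cutX 6640000 (.pair 129 128 116) (.cutY 1140000 (.pair 122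 128 116) (.pair 122 130 116)))))) (.cutZ 1750000 (.cutX 6620000 (.cutY 1120000 (.pair 126 83 85) (.pair 126 128 85)) (.cutY 1120000 (.pair 122 83 85) (.cutX 6640000 (.cutY 1140000 (.pair 129 128 85) (.pair 129 130 85)) (.cutY 1140000 (.pair 122 131 85) (.pair 122 130 85))))) (.cutX 6620000 (.cutY 1120000 (.pair 126 117 82) (.pair 126 132 82)) (.cutY 1120000 (.pair 122 117 82) (.cutX 6640000 (.cutY 1140000 (.pair 129 132 82) (.pair 129 133 82)) (.cutY 1140000 (.cutZ 1780000 (.pair 122 131 82) (.pair 122 132 134)) (.pair 122 133 82)))))))) (.cutY 1100000 (.cutZ 1900000 (.cutY 1050000 (.cutZ 1850000 (.pair 122 119 95) (.pair 122 119 92)) (.cutZ 1850000 (.cutX 6620000 (.pair 126 77 95) (.cutY 1080000 (.pair 122 77 95) (.pair 122 127 95))) (.cutX 6620000 (.pair 126 77 92) (.cutY 1080000 (.pair 122 77 92) (.pair 122 127 92))))) (.cutY 1050000 (.cutZ 1950000 (.pair 122 119 75) (.pair 122 119 120)) (.cutZ 1950000 (.pair 122 77 135) (.pair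 122 77 120)))) (.cutZ 1900000 (.cutZ 1850000 (.cutX 6620000 (.cutY 1120000 (.pair 126 121 95) (.pair 126 132 95)) (.cutY 1120000 (.pair 122 121 95) (.cutX 6640000 (.cutY 1140000 (.pair 129 132 95) (.pair 129 133 95)) (.cutY 1140000 (.pair 122 136 95) (.pair 122 133 95))))) (.cutX 6620000 (.cutY 1120000 (.pair 126 121 92) (.pair 126 132 92)) (.cutY 1120000 (.pair 122 121 92) (.cutX 6640000 (.pair 129 137 92) (.cutY 1140000 (.pair 122 136 92) (.pair 122 138 92)))))) (.cutZ 1950000 (.cutX 6620000 (.pair 126 121 139) (.cutY 1120000 (.pair 122 121 135) (.pair 122 137 139))) (.cutX 6620000 (.pair 126 93 120) (.cutY 1120000 (.pair 122 93 120) (.pair 122 137 120)))))))) (.cutY 1000000 (.cutZ 2200000 (.cutY 900000 (.cutZ 2100000 (.pair 122 98 100) (.pair 122 98 101)) (.cutZ 2100000 (.cutY 950000 (.pair 122 65 100) (.pair 122 69 100)) (.pair 122 99 101))) (.cutY 900000 (.pair 122 98 58) (.pair 122 99 58))) (.cutZ 2200000 (.cutY 1100000 (.cutZ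 2100000 (.cutY 1050000 (.pair 122 140 100) (.pair 122 141 142)) (.cutY 1050000 (.pair 122 140 101) (.pair 122 141 101))) (.cutZ 2100000 (.cutZ 2050000 (.pair 122 93 142) (.pair 122 93 143)) (.pair 122 104 101))) (.cutY 1100000 (.pair 122 102 103) (.pair 122 104 103)))))

def part6 : PTree := (.cutZ 1600000 (.cutY 800000 (.cutZ 1200000 (.cutZ 800000 (.cutY 600000 (.pair 109 34 5) (.pair 109 19 5)) (.cutY 600000 (.pair 109 34 7) (.cutZ 1000000 (.pair 109 19 21) (.pair 109 19 9)))) (.cutY 600000 (.pair 109 34 8) (.cutZ 1400000 (.pair 109 19 37) (.pair 109 19 38)))) (.cutZ 1200000 (.cutZ 800000 (.cutY 1000000 (.pair 109 21 5) .empty) (.cutY 1000000 (.cutZ 1000000 (.pair 109 21 21) (.pair 109 21 9)) (.cutZ 1000000 (.pair 109 9 21) (.pair 109 110 9)))) (.cutY 1000000 (.cutZ 1400000 (.pair 109 21 111) (.cutY 900000 (.pair 109 66 38) (.pair 109 39 38))) (.cutZ 1400000 (.cutY 1100000 (.pair 109 35 111) (.cutZ 1300000 (.pair 109 22 111) (.pair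 109 47 43))) (.cutY 1100000 (.cutZ 1500000 (.pair 109 35 45) (.cutY 1050000 (.pair 109 24 42) (.pair 109 76 42))) (.cutZ 1500000 (.pair 109 47 45) (.cutY 1150000 (.pair 109 83 112) (.pair 109 113 112)))))))) (.cutZ 2400000 (.cutY 800000 (.cutZ 2000000 (.cutY 600000 (.pair 109 56 10) (.cutZ 1800000 (.pair 109 19 54) (.cutY 700000 (.pair 109 52 26) (.pair 109 55 26)))) (.cutY 600000 (.pair 109 56 12) (.cutZ 2200000 (.cutY 700000 (.pair 109 53 57) (.pair 109 55 57)) (.cutY 700000 (.pair 109 53 58) (.pair 109 114 58))))) (.cutZ 2000000 (.cutY 1000000 (.cutZ 1800000 (.cutY 900000 (.pair 109 66 54) (.cutZ 1700000 (.pair 109 39 84) (.cutY 950000 (.pair 109 65 67) (.pair 109 69 67)))) (.cutY 900000 (.cutZ 1900000 (.pair 109 66 26) (.pair 109 98 68)) (.cutZ 1900000 (.cutY 950000 (.pair 109 65 74) (.pair 109 69 74)) (.cutY 950000 (.pair 109 65 68) (.pair 109 69 68))))) (.cutZ 1800000 (.cutY 1100000 (.cutZ 1700000 (.cutY 1050000 (.pair 109 24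 84) (.pair 109 76 84)) (.cutY 1050000 (.pair 109 115 71) (.cutZ 1750000 (.pair 109 76 85) (.pair 109 76 82)))) (.cutZ 1700000 (.cutY 1150000 (.cutZ 1650000 (.pair 109 83 87) (.pair 109 83 80)) (.cutZ 1650000 (.pair 109 113 87) (.pair 109 78 116))) (.cutY 1150000 (.cutZ 1750000 (.pair 109 83 85) (.pair 109 117 82)) (.cutZ 1750000 (.pair 109 118 85) (.pair 109 118 82))))) (.cutY 1100000 (.cutZ 1900000 (.cutY 1050000 (.pair 109 119 74) (.cutZ 1850000 (.pair 109 77 95) (.pair 109 77 92))) (.cutY 1050000 (.pair 109 119 75) (.cutZ 1950000 (.pair 109 77 75) (.pair 109 77 120)))) (.cutZ 1900000 (.cutY 1150000 (.cutZ 1850000 (.pair 109 121 95) (.pair 109 121 92)) (.cutZ 1850000 (.pair 109 79 95) (.pair 109 79 92))) (.cutY 1150000 (.cutZ 1950000 (.pair 109 121 75) (.pair 109 93 120)) (.cutZ 1950000 (.pair 109 94 75) (.pair 109 94 120))))))) (.cutY 1000000 (.cutZ 2200000 (.cutY 900000 (.cutZ 2100000 (.pair 109 98 100) (.pair 109 98 101)) (.cutZ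 2100000 (.cutY 950000 (.pair 109 65 100) (.pair 109 69 100)) (.pair 109 99 101))) (.cutY 900000 (.pair 109 98 58) (.pair 109 99 58))) (.cutZ 2200000 (.cutY 1100000 (.cutZ 2100000 (.cutY 1050000 (.pair 109 119 100) (.pair 109 77 100)) (.pair 109 102 101)) (.cutZ 2100000 (.cutY 1150000 (.pair 109 93 100) (.pair 109 94 100)) (.pair 109 104 101))) (.cutY 1100000 (.pair 109 102 103) (.pair 109 104 103)))))) (.cutY 800000 (.cutZ 2800000 (.cutY 600000 (.pair 109 56 105) (.pair 109 53 105)) (.pair 109 11 106)) (.cutZ 2800000 (.cutY 1000000 (.pair 109 63 108) (.pair 109 107 108)) (.pair 109 15 106)))))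

def part7 : PTree := (.cutX 6400000 (.cutY 1100000 (.cutZ 1800000 (.cutX 6300000 (.pair 40 28 59) (.cutZ 1700000 (.pair 32 24 59) (.pair 32 28 67))) (.cutX 6300000 (.pair 40 28 62) (.cutZ 1900000 (.pair 32 28 62) (.pair 32 28 68)))) (.cutZ 1800000 (.cutX 6300000 (.cutY 1200000 (.cutZ 1700000 (.pair 40 47 59) (.pair 40 23 67)) (.cutZ 1700000 (.pair 40 49 59) (.pair 40 49 67))) (.cutY 1200000 (.cutZ 1700000 (.cutX 6350000 (.cutY 1150000 (.pair 32 47 59) (.pair 32 50 59)) (.cutY 1150000 (.pair 32 47 59) (.pair 32 50 59))) (.pair 32 70 71)) (.cutZ 1700000 (.pair 32 49 72) (.pair 32 49 71)))) (.cutX 6300000 (.cutY 1200000 (.pair 40 70 62) (.pair 40 73 62)) (.cutY 1200000 (.cutZ 1900000 (.pair 32 70 74) (.pair 32 70 75)) (.pair 32 73 62))))) (.cutY 1100000 (.cutZ 1800000 (.cutX 6500000 (.cutZ 1700000 (.cutX 6450000 (.pair 44 24 72) (.cutY 1050000 (.pair 48 24 72) (.pair 48 76 72))) (.cutX 6450000 (.pair 44 28 71) (.cutY 1050000 (.pair 48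 28 71) (.pair 48 76 71)))) (.cutZ 1700000 (.cutY 1050000 (.pair 33 24 72) (.pair 33 76 72)) (.cutY 1050000 (.pair 33 28 71) (.pair 33 76 71)))) (.cutX 6500000 (.cutZ 1900000 (.cutX 6450000 (.pair 44 28 74) (.cutY 1050000 (.pair 48 28 74) (.pair 48 76 74))) (.cutX 6450000 (.pair 44 28 75) (.pair 48 28 75))) (.cutZ 1900000 (.cutY 1050000 (.pair 33 28 74) (.pair 33 77 74)) (.cutY 1050000 (.pair 33 28 75) (.pair 33 77 75))))) (.cutZ 1800000 (.cutX 6500000 (.cutY 1200000 (.cutZ 1700000 (.cutX 6450000 (.cutY 1150000 (.pair 44 70 72) (.pair 44 50 72)) (.cutY 1150000 (.pair 48 70 72) (.pair 48 78 72))) (.cutX 6450000 (.cutY 1150000 (.pair 44 70 71) (.pair 44 78 71)) (.cutY 1150000 (.pair 48 70 71) (.pair 48 79 71)))) (.cutZ 1700000 (.cutX 6450000 (.pair 44 49 72) (.cutZ 1650000 (.pair 48 49 72) (.pair 48 49 80))) (.cutX 6450000 (.pair 44 81 71) (.cutZ 1750000 (.pair 48 81 71) (.pair 48 81 82))))) (.cutY 1200000 (.cutZ 1700000 (.cutY 1150000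 (.pair 33 83 84) (.cutZ 1650000 (.pair 33 78 84) (.pair 33 78 80))) (.cutY 1150000 (.cutZ 1750000 (.pair 33 83 71) (.pair 33 83 82)) (.cutZ 1750000 (.pair 33 79 85) (.pair 33 79 82)))) (.cutZ 1700000 (.cutZ 1650000 (.pair 33 86 87) (.cutX 6520000 (.pair 88 86 80) (.cutY 1220000 (.pair 33 86 80) (.pair 33 89 80)))) (.cutZ 1750000 (.cutX 6520000 (.pair 88 81 85) (.cutY 1220000 (.pair 33 81 85) (.pair 33 89 85))) (.cutX 6520000 (.pair 88 81 82) (.cutY 1220000 (.pair 33 81 82) (.pair 33 89 82))))))) (.cutX 6500000 (.cutY 1200000 (.cutZ 1900000 (.cutX 6450000 (.cutY 1150000 (.pair 44 70 74) (.pair 44 79 74)) (.cutY 1150000 (.pair 48 70 74) (.pair 48 79 74))) (.cutX 6450000 (.cutY 1150000 (.pair 44 70 75) (.pair 44 79 75)) (.cutY 1150000 (.pair 48 70 75) (.pair 48 79 75)))) (.cutZ 1900000 (.cutX 6450000 (.pair 44 81 74) (.pair 48 90 74)) (.pair 91 73 75))) (.cutY 1200000 (.cutZ 1900000 (.cutY 1150000 (.cutZ 1850000 (.pair 33 83 74) (.pair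 33 70 92)) (.cutZ 1850000 (.pair 33 79 74) (.pair 33 79 92))) (.cutY 1150000 (.pair 33 93 75) (.pair 33 94 75))) (.cutZ 1900000 (.cutZ 1850000 (.pair 33 90 95) (.pair 33 90 92)) (.pair 33 73 96)))))))

def part8 : PTree := (.cutZ 2400000 (.cutY 800000 (.cutX 6200000 (.cutZ 2000000 (.cutY 600000 (.pair 31 34 10) (.pair 31 52 10)) (.cutY 600000 (.pair 31 11 12) (.pair 31 53 12))) (.cutZ 2000000 (.cutX 6400000 (.cutY 600000 (.pair 32 34 10) (.cutZ 1800000 (.pair 32 19 10) (.pair 32 52 26))) (.cutY 600000 (.pair 33 34 10) (.cutZ 1800000 (.pair 33 19 54) (.cutY 700000 (.pair 33 52 26) (.pair 33 55 26))))) (.cutX 6400000 (.cutY 600000 (.pair 32 56 12) (.cutZ 2200000 (.pair 32 53 57) (.pair 32 53 58))) (.cutY 600000 (.pair 33 56 12) (.cutZ 2200000 (.cutY 700000 (.pair 33 53 57) (.pair 33 55 57)) (.pair 33 53 58)))))) (.cutX 6200000 (.cutZ 2000000 (.cutY 1000000 (.cutZ 1800000 (.pair 31 13 54) (.pair 31 13 26)) (.cutY 1100000 (.cutZ 1800000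 (.pair 31 28 59) (.pair 31 28 26)) (.cutZ 1800000 (.cutX 6100000 (.pair 60 23 59) (.cutY 1200000 (.pair 31 23 59) (.pair 31 49 59))) (.pair 31 61 62)))) (.cutY 1000000 (.pair 31 63 64) (.cutY 1100000 (.pair 31 28 64) (.pair 31 61 29)))) (.cutZ 2000000 (.cutY 1000000 (.cutX 6400000 (.cutZ 1800000 (.cutX 6300000 (.cutY 900000 (.pair 40 13 54) (.pair 40 39 59)) (.cutY 900000 (.pair 32 13 54) (.pair 32 39 59))) (.cutX 6300000 (.cutY 900000 (.pair 40 13 26) (.pair 40 65 26)) (.cutY 900000 (.pair 32 13 26) (.pair 32 65 26)))) (.cutZ 1800000 (.cutY 900000 (.pair 33 66 54) (.cutX 6500000 (.cutZ 1700000 (.pair 33 39 59) (.pair 33 65 67)) (.cutZ 1700000 (.pair 33 39 59) (.pair 33 65 67)))) (.cutY 900000 (.cutX 6500000 (.cutZ 1900000 (.pair 33 66 26) (.pair 33 66 68)) (.cutZ 1900000 (.pair 33 66 26) (.pair 33 66 68))) (.cutX 6500000 (.cutZ 1900000 (.cutX 6450000 (.pair 44 65 26) (.pair 48 65 26)) (.pair 33 65 68)) (.cutZ 1900000 (.cutY 950000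 (.pair 33 65 26) (.pair 33 69 26)) (.pair 33 65 68)))))) part7) (.cutY 1000000 (.cutX 6400000 (.cutZ 2200000 (.cutX 6300000 (.pair 40 63 97) (.cutY 900000 (.pair 32 63 97) (.pair 32 65 97))) (.pair 32 63 58)) (.cutZ 2200000 (.cutY 900000 (.pair 33 98 97) (.cutX 6500000 (.pair 91 99 97) (.cutZ 2100000 (.pair 33 65 100) (.pair 33 99 101)))) (.cutY 900000 (.pair 33 98 58) (.pair 33 99 58)))) (.cutX 6400000 (.cutY 1100000 (.cutZ 2200000 (.pair 32 28 97) (.pair 32 102 58)) (.cutZ 2200000 (.cutX 6300000 (.pair 40 61 97) (.cutY 1200000 (.pair 32 61 97) (.pair 32 73 97))) (.pair 32 61 103))) (.cutY 1100000 (.cutZ 2200000 (.cutX 6500000 (.cutZ 2100000 (.pair 91 102 100) (.pair 91 102 101)) (.cutZ 2100000 (.cutY 1050000 (.pair 33 102 100) (.pair 33 77 100)) (.pair 33 102 101))) (.pair 33 102 103)) (.cutZ 2200000 (.cutX 6500000 (.cutY 1200000 (.cutZ 2100000 (.cutX 6450000 (.pair 44 61 100) (.cutY 1150000 (.pair 91 93 100) (.pair 91 94 100)))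 (.pair 91 61 101)) (.pair 91 73 97)) (.cutY 1200000 (.cutZ 2100000 (.cutY 1150000 (.pair 33 93 100) (.pair 33 94 100)) (.pair 33 104 101)) (.cutZ 2100000 (.pair 33 73 100) (.pair 33 73 101)))) (.pair 33 61 103)))))))) (.cutY 800000 (.cutX 6200000 (.cutZ 2800000 (.pair 31 11 105) (.pair 31 11 106)) (.cutZ 2800000 (.cutX 6400000 (.cutY 600000 (.pair 32 56 105) (.pair 32 53 105)) (.cutY 600000 (.pair 33 56 105) (.pair 33 53 105))) (.pair 36 11 106))) (.cutX 6200000 (.cutZ 2800000 (.cutY 1000000 (.pair 31 63 105) (.pair 31 107 30)) (.pair 31 15 106)) (.cutZ 2800000 (.cutY 1000000 (.pair 36 63 105) (.pair 36 107 108)) (.pair 36 15 106)))))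

def part9 : PTree := (.cutX 6000000 (.cutZ 1600000 (.cutY 800000 (.cutZ 1200000 (.cutZ 800000 (.pair 17 5 5) (.cutX 5800000 (.pair 18 5 7) (.cutY 600000 (.pair 17 5 7) (.pair 17 19 7)))) (.pair 17 20 8)) (.cutZ 1200000 (.cutY 1000000 (.cutZ 800000 (.pair 17 7 5) (.pair 17 21 7)) (.cutZ 800000 .empty (.cutX 5800000 (.pair 18 9 7) (.cutY 1100000 (.pair 17 9 7) (.pair 17 22 7))))) (.cutY 1000000 (.pair 17 21 8) (.cutX 5800000 (.cutY 1100000 (.pair 18 14 8) (.pair 18 23 8)) (.cutY 1100000 (.pair 17 24 8) (.cutZ 1400000 (.pair 17 22 8) (.pair 17 23 25))))))) (.cutZ 2400000 (.cutY 800000 (.cutZ 2000000 (.cutX 5800000 (.pair 18 20 10) (.cutY 600000 (.pair 17 20 10) (.pair 17 19 10))) (.pair 17 11 12)) (.cutZ 2000000 (.cutY 1000000 (.cutX 5800000 (.pair 18 13 10) (.cutZ 1800000 (.pair 17 13 10) (.pair 17 13 26))) (.cutX 5800000 (.pair 18 14 27) (.cutY 1100000 (.pair 17 28 27) (.cutZ 1800000 (.pair 17 23 27) (.pair 17 23 26))))) (.cutY 1000000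 (.pair 17 13 12) (.cutX 5800000 (.pair 18 14 29) (.pair 17 14 29))))) (.cutY 800000 (.pair 17 11 16) (.pair 17 15 30)))) (.cutZ 1600000 (.cutY 800000 (.cutZ 1200000 (.cutX 6200000 (.cutZ 800000 (.pair 31 5 5) (.cutY 600000 (.pair 31 20 7) (.pair 31 19 7))) (.cutZ 800000 (.cutX 6400000 (.pair 32 5 5) (.cutY 600000 (.pair 33 5 5) (.pair 33 19 5))) (.cutX 6400000 (.cutY 600000 (.pair 32 34 7) (.cutZ 1000000 (.pair 32 19 21) (.pair 32 19 9))) (.cutY 600000 (.pair 33 34 7) (.cutZ 1000000 (.pair 33 19 21) (.pair 33 19 9)))))) (.cutX 6200000 (.cutY 600000 (.pair 31 34 8) (.pair 31 19 8)) (.cutX 6400000 (.cutY 600000 (.pair 32 34 8) (.cutZ 1400000 (.pair 32 19 8) (.pair 32 19 25))) (.cutY 600000 (.pair 33 34 8) (.cutZ 1400000 (.pair 33 19 8) (.pair 33 19 25)))))) (.cutZ 1200000 (.cutX 6200000 (.cutY 1000000 (.cutZ 800000 (.pair 31 21 5) (.cutZ 1000000 (.pair 31 21 21) (.pair 31 21 9))) (.cutZ 800000 .empty (.cutY 1100000 (.pair 31 35 7) (.cutZ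 1000000 .empty (.pair 31 22 9))))) (.cutY 1000000 (.cutZ 800000 (.pair 36 21 5) (.cutX 6400000 (.cutZ 1000000 (.pair 32 21 21) (.pair 32 21 9)) (.cutZ 1000000 (.pair 33 21 21) (.pair 33 21 9)))) (.cutZ 800000 .empty (.cutX 6400000 (.cutY 1100000 (.cutZ 1000000 (.pair 32 35 21) (.pair 32 35 9)) (.cutZ 1000000 .empty (.pair 32 22 9))) (.cutY 1100000 (.cutZ 1000000 (.pair 33 35 21) (.pair 33 35 9)) (.cutZ 1000000 .empty (.pair 33 22 9))))))) (.cutX 6200000 (.cutY 1000000 (.cutZ 1400000 (.pair 31 21 8) (.pair 31 21 25)) (.cutY 1100000 (.cutZ 1400000 (.pair 31 35 8) (.pair 31 24 25)) (.cutZ 1400000 (.pair 31 22 37) (.pair 31 23 25)))) (.cutY 1000000 (.cutX 6400000 (.cutZ 1400000 (.pair 32 21 37) (.pair 32 21 38)) (.cutZ 1400000 (.pair 33 21 37) (.cutY 900000 (.pair 33 21 38) (.pair 33 39 38)))) (.cutX 6400000 (.cutY 1100000 (.cutZ 1400000 (.pair 32 35 37) (.pair 32 24 38)) (.cutZ 1400000 (.cutX 6300000 (.pair 40 22 37) (.cutY 1200000 (.pair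 32 22 37) (.pair 32 41 37))) (.cutX 6300000 (.cutY 1200000 (.pair 40 23 25) (.pair 40 41 25)) (.cutY 1200000 (.cutZ 1500000 (.pair 32 23 25) (.pair 32 23 42)) (.cutZ 1500000 (.pair 32 41 25) (.pair 32 41 42)))))) (.cutY 1100000 (.cutZ 1400000 (.pair 33 35 37) (.cutX 6500000 (.cutZ 1500000 (.pair 33 35 38) (.pair 33 24 42)) (.cutZ 1500000 (.pair 33 35 38) (.pair 33 24 42)))) (.cutZ 1400000 (.cutX 6500000 (.cutY 1200000 (.cutZ 1300000 (.pair 33 22 37) (.cutX 6450000 (.cutY 1150000 (.pair 33 22 43) (.pair 33 22 43)) (.pair 33 22 43))) (.cutZ 1300000 (.pair 33 41 37) (.pair 33 41 43))) (.cutY 1200000 (.cutZ 1300000 (.pair 33 22 37) (.pair 33 22 43)) (.cutZ 1300000 (.pair 33 41 37) (.pair 33 41 43)))) (.cutX 6500000 (.cutY 1200000 (.cutZ 1500000 (.cutX 6450000 (.pair 44 23 45) (.cutY 1150000 (.pair 33 23 45) (.pair 33 46 45))) (.cutX 6450000 (.pair 44 47 42) (.cutY 1150000 (.pair 33 47 42) (.pair 48 46 42)))) (.cutZ 1500000 (.pair 33 41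 45) (.cutX 6450000 (.pair 44 41 42) (.pair 48 49 42)))) (.cutY 1200000 (.cutZ 1500000 (.pair 33 47 45) (.cutY 1150000 (.pair 33 47 42) (.pair 33 50 42))) (.cutZ 1500000 (.pair 33 49 45) (.cutZ 1550000 (.pair 33 49 42) (.pair 33 49 51)))))))))))) part8))

def tree : PTree := (.cutX 6550000 (.cutY 1250000 (.cutX 5600000 (.cutX 5200000 (.cutZ 1600000 (.pair 0 1 2) (.pair 0 1 3)) (.cutZ 1600000 (.cutY 800000 (.cutZ 1200000 (.cutZ 800000 (.pair 4 5 6) (.pair 4 5 7)) (.pair 4 5 8)) (.cutZ 1200000 (.cutY 1000000 (.cutZ 800000 (.pair 4 7 5) (.pair 4 7 7)) (.cutZ 800000 .empty (.pair 4 9 7))) (.cutY 1000000 (.pair 4 7 8) (.pair 4 9 8)))) (.cutZ 2400000 (.cutY 800000 (.cutZ 2000000 (.pair 4 5 10) (.pair 4 11 12)) (.cutZ 2000000 (.cutY 1000000 (.pair 4 13 10) (.pair 4 14 10)) (.pair 4 15 12))) (.cutY 800000 (.pair 4 11 16) (.pair 4 15 16))))) part9) .graph) (.cutX 6600000 (.cutY 1180000 part6 .graph) (.cutX 6650000 (.cutY 1150000 (.cutZ 1600000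 (.cutZ 1200000 (.cutY 800000 (.cutZ 800000 (.cutY 600000 (.pair 122 34 5) (.pair 122 19 5)) (.cutY 600000 (.pair 122 34 7) (.cutZ 1000000 (.pair 122 19 21) (.pair 122 19 9)))) (.cutZ 800000 (.cutY 1000000 (.pair 122 21 5) .empty) (.cutY 1000000 (.cutZ 1000000 (.pair 122 21 21) (.pair 122 21 9)) (.cutZ 1000000 (.pair 122 110 21) (.pair 122 110 9))))) (.cutY 800000 (.cutY 600000 (.pair 122 34 8) (.cutZ 1400000 (.pair 122 19 111) (.pair 122 19 38))) (.cutY 1000000 (.cutZ 1400000 (.pair 122 21 111) (.cutY 900000 (.pair 122 66 38) (.pair 122 39 38))) (.cutZ 1400000 (.cutY 1100000 (.pair 122 35 111) (.pair 122 123 111)) (.cutY 1100000 (.cutZ 1500000 (.pair 122 35 45) (.cutY 1050000 (.pair 122 24 112) (.pair 122 76 112))) (.cutZ 1500000 (.pair 122 123 45) (.cutZ 1550000 (.pair 122 123 112) (.pair 122 83 51)))))))) (.cutZ 2400000 (.cutY 800000 (.cutZ 2000000 (.cutY 600000 (.pair 122 56 10) (.cutZ 1800000 (.pair 122 19 54) (.cutY 700000 (.pair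 122 124 26) (.pair 122 55 26)))) (.cutY 600000 (.pair 122 56 12) (.cutZ 2200000 (.cutY 700000 (.pair 122 124 57) (.pair 122 114 57)) (.cutY 700000 (.pair 122 53 58) (.pair 122 114 58))))) part5) (.cutY 800000 (.cutZ 2800000 (.cutY 600000 (.pair 122 56 105) (.pair 122 53 105)) (.pair 122 11 106)) (.cutZ 2800000 (.cutY 1000000 (.cutZ 2600000 (.pair 122 63 144) (.pair 122 63 145)) (.pair 122 107 108)) (.pair 122 15 106))))) .graph) part4)))

theorem tree_ok : PTree.ok bin items tree = true := by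
  simp only [PTree.ok, Bool.and_eq_true]
  refine ⟨⟨by decide +kernel, ?_⟩, by decide +kernel⟩
  simp only [items, List.all_append, chunk0_ok, chunk1_ok, chunk2_ok, chunk3_ok, chunk4_ok, chunk5_ok, chunk6_ok, chunk7_ok, chunk8_ok, chunk9_ok, chunk10_ok, chunk11_ok, chunk12_ok, chunk13_ok, chunk14_ok, Bool.and_self]

end Vale.Agent.P232.GapPair.Bin5
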